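import Mathlib
import Vale.Agent.Lib.LinearCoefficientBound

namespace Vale.Agent.Results.P047.WeakImpliesSharp

open Finset
open Vale.Agent.Results.P047.LinearCoefficientBound

/-- `WeakBound C θ`: every Boolean function `f` on any cube `{-1,1}^n` whose degree is at most
`d ≥ 1` has level-one Fourier sum `∑ i, fourier f {i}` at most `C d^θ`. -/
def WeakBound (C θ : ℝ) : Prop :=
  ∀ (n d : ℕ) (f : (Fin n → Bool) → ℝ), 1 ≤ d → (∀ x, f x = 1 ∨ f x = -1) →
    (∀ S : Finset (Fin n), d < S.card → fourier f S = 0) →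
    ∑ i, fourier f {i} ≤ C * (d : ℝ) ^ θ

/-- The bit of a sign: `true` for negative numbers. -/
noncomputable def bit (r : ℝ) : Bool := decide (r < 0)

lemma sg_bit (r : ℝ) (h : r = 1 ∨ r = -1) : sg (bit r) = r := by
  rcases h with h | h <;> simp [sg, bit, h]

/-- Block `j` of a point of the cube of dimension `k * n`. -/
def blk (k n : ℕ) (z : Fin (k * n) → Bool) (j : Fin k) : Fin n → Bool :=
  fun i => z (finProdFinEquiv (j, i))

/-- The composition `h (g (x_1), ..., g (x_k))` on `k * n` variables. -/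
noncomputable def comp (k n : ℕ) (h : (Fin k → Bool) → ℝ) (g : (Fin n → Bool) → ℝ) :
    (Fin (k * n) → Bool) → ℝ :=
  fun z => h (fun j => bit (g (blk k n z j)))

/-- The part of `U` in block `j`. -/
def Uj (k n : ℕ) (U : Finset (Fin (k * n))) (j : Fin k) : Finset (Fin n) :=
  Finset.univ.filter (fun i => finProdFinEquiv (j, i) ∈ U)

/-- The blocks met by `U`. -/
def TU (k n : ℕ) (U : Finset (Fin (k * n))) : Finset (Fin k) :=
  Finset.univ.filter (fun j => Uj k n U j ≠ ∅)

/-- Points of the big cube as families of points of the small cube. -/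
def blkEquiv (k n : ℕ) : (Fin (k * n) → Bool) ≃ (Fin k → Fin n → Bool) where
  toFun z := blk k n z
  invFun x := fun u => x (finProdFinEquiv.symm u).1 (finProdFinEquiv.symm u).2
  left_inv z := by
    funext u
    show z (finProdFinEquiv ((finProdFinEquiv.symm u).1, (finProdFinEquiv.symm u).2)) = z u
    rw [Prod.mk.eta, Equiv.apply_symm_apply]
  right_inv x := by
    funext j i
    simp [blk]

lemma chi_blk (k n : ℕ) (U : Finset (Fin (k * n))) (z : Fin (k * n) → Bool) :
    chi U z = ∏ j, chi (Uj k n U j) (blk k n z j) := by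
  unfold chi
  have h1 : ∏ u ∈ U, sg (z u) = ∏ u : Fin (k * n), (if u ∈ U then sg (z u) else 1) := by
    rw [Finset.prod_ite_mem, Finset.univ_inter]
  rw [h1, ← Equiv.prod_comp finProdFinEquiv, Fintype.prod_prod_type]
  apply Finset.prod_congr rfl
  intro j _
  unfold Uj
  rw [Finset.prod_filter]
  rfl

lemma pushforward {X : Type} [Fintype X] [DecidableEq X] (k : ℕ) (β : X → Bool)
    (Φ : (Fin k → Bool) → ℝ) (ψ : Fin k → X → ℝ) :
    ∑ x : Fin k → X, Φ (fun j => β (x j)) * ∏ j, ψ j (x j)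
      = ∑ y : Fin k → Bool, Φ y * ∏ j, ∑ a : X, (if β a = y j then ψ j a else 0) := by
  have h1 : ∀ y : Fin k → Bool, ∏ j, ∑ a : X, (if β a = y j then ψ j a else 0)
      = ∑ x : Fin k → X, (if (fun j => β (x j)) = y then ∏ j, ψ j (x j) else 0) := by
    intro y
    rw [Finset.prod_univ_sum, Fintype.piFinset_univ]
    apply Finset.sum_congr rfl
    intro x _
    rw [Finset.prod_ite_zero]
    have : (∀ i ∈ (Finset.univ : Finset (Fin k)), β (x i) = y i) ↔ (fun j => β (x j)) = y := by
      constructor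
      · intro h; funext j; exact h j (Finset.mem_univ j)
      · intro h i _; rw [← h]
    simp only [this]
  simp_rw [h1, Finset.mul_sum]
  rw [Finset.sum_comm]
  apply Finset.sum_congr rfl
  intro x _
  rw [Finset.sum_eq_single (fun j => β (x j))]
  · simp
  · intro y _ hy
    rw [if_neg (Ne.symm hy), mul_zero]
  · intro h; exact absurd (Finset.mem_univ _) h


lemma sum_chi (n : ℕ) (S : Finset (Fin n)) :
    ∑ x : Fin n → Bool, chi S x = if S = ∅ then (2 : ℝ) ^ n else 0 := by
  split_ifs with hS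
  · subst hS
    simp [chi_empty]
  · obtain ⟨i, hi⟩ := Finset.nonempty_iff_ne_empty.mpr hS
    have h := sum_flip i (fun x => chi S x)
    simp only [chi_flip, if_pos hi, Finset.sum_neg_distrib] at h
    linarith

lemma sum_bit_chi (n : ℕ) (g : (Fin n → Bool) → ℝ) (hg : ∀ x, g x = 1 ∨ g x = -1)
    (S : Finset (Fin n)) (b : Bool) :
    ∑ a : Fin n → Bool, (if bit (g a) = b then chi S a else 0)
      = (2 : ℝ) ^ n / 2 * ((if S = ∅ then 1 else 0) + sg b * fourier g S) := by
  have h1 : ∀ a : Fin n → Bool, (if bit (g a) = b then chi S a else 0)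
      = (chi S a + sg b * (g a * chi S a)) / 2 := by
    intro a
    rcases hg a with h | h <;> cases b <;> simp [bit, h, sg]
  simp_rw [h1]
  rw [← Finset.sum_div, Finset.sum_add_distrib, ← Finset.mul_sum, sum_chi]
  have h2 : ∑ a : Fin n → Bool, g a * chi S a = (2 : ℝ) ^ n * fourier g S := by
    unfold Vale.Agent.Results.P047.LinearCoefficientBound.fourier
    field_simp
  rw [h2]
  split_ifs <;> ring

/-- Fourier coefficients of a composition with a balanced inner function. -/
theorem fourier_comp (k n : ℕ) (h : (Fin k → Bool) → ℝ) (g : (Fin n → Bool) → ℝ)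
    (hg : ∀ x, g x = 1 ∨ g x = -1) (hbal : fourier g ∅ = 0) (U : Finset (Fin (k * n))) :
    fourier (comp k n h g) U
      = fourier h (TU k n U) * ∏ j ∈ TU k n U, fourier g (Uj k n U j) := by
  have h1 : ∑ z : Fin (k * n) → Bool, comp k n h g z * chi U z
      = ∑ x : Fin k → Fin n → Bool, h (fun j => bit (g (x j))) * ∏ j, chi (Uj k n U j) (x j) := by
    rw [← Equiv.sum_comp (blkEquiv k n)]
    apply Finset.sum_congr rfl
    intro z _
    rw [chi_blk]
    rfl
  have h2 := pushforward k (fun a : Fin n → Bool => bit (g a)) h (fun j => chi (Uj k n U j))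
  have h3 : ∀ y : Fin k → Bool,
      ∏ j, ∑ a : Fin n → Bool, (if bit (g a) = y j then chi (Uj k n U j) a else 0)
        = ((2 : ℝ) ^ n / 2) ^ k * (chi (TU k n U) y * ∏ j ∈ TU k n U, fourier g (Uj k n U j)) := by
    intro y
    have h4 : ∀ j : Fin k, ∑ a : Fin n → Bool, (if bit (g a) = y j then chi (Uj k n U j) a else 0)
        = (2 : ℝ) ^ n / 2 * (if Uj k n U j ≠ ∅ then sg (y j) * fourier g (Uj k n U j) else 1) := by
      intro j
      rw [sum_bit_chi n g hg]
      by_cases hU : Uj k n U j = ∅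
      · rw [hU, hbal]
        simp
      · simp [hU]
    simp_rw [h4]
    rw [Finset.prod_mul_distrib, Finset.prod_const, Finset.card_univ, Fintype.card_fin]
    congr 1
    unfold TU chi
    rw [← Finset.prod_mul_distrib, Finset.prod_filter]
  unfold Vale.Agent.Results.P047.LinearCoefficientBound.fourier at *
  rw [h1, h2]
  simp_rw [h3]
  have h5 : ∑ y : Fin k → Bool, h y * (((2 : ℝ) ^ n / 2) ^ k
        * (chi (TU k n U) y * ∏ j ∈ TU k n U, (∑ x, g x * chi (Uj k n U j) x) / 2 ^ n))
      = ((2 : ℝ) ^ n / 2) ^ k * (∏ j ∈ TU k n U, (∑ x, g x * chi (Uj k n U j) x) / 2 ^ n)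
        * ∑ y : Fin k → Bool, h y * chi (TU k n U) y := by
    rw [Finset.mul_sum]
    apply Finset.sum_congr rfl
    intro y _
    ring
  rw [h5]
  have hpow : ((2 : ℝ) ^ n / 2) ^ k * 2 ^ k = 2 ^ (k * n) := by
    rw [← mul_pow, div_mul_cancel₀ _ (two_ne_zero), ← pow_mul, mul_comm]
  have hk : (2 : ℝ) ^ k ≠ 0 := by positivity
  have hkn : (2 : ℝ) ^ (k * n) ≠ 0 := by positivity
  rw [← hpow]
  field_simp


lemma comp_boolean (k n : ℕ) (h : (Fin k → Bool) → ℝ) (g : (Fin n → Bool) → ℝ)
    (hh : ∀ y, h y = 1 ∨ h y = -1) : ∀ z, comp k n h g z = 1 ∨ comp k n h g z = -1 :=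
  fun _ => hh _

lemma fourier_comp_empty (k n : ℕ) (h : (Fin k → Bool) → ℝ) (g : (Fin n → Bool) → ℝ)
    (hg : ∀ x, g x = 1 ∨ g x = -1) (hbal : fourier g ∅ = 0) :
    fourier (comp k n h g) ∅ = fourier h ∅ := by
  rw [fourier_comp k n h g hg hbal]
  have hT : TU k n ∅ = ∅ := by
    unfold TU Uj
    simp
  rw [hT]
  simp

lemma Uj_singleton (k n : ℕ) (j₀ : Fin k) (i₀ : Fin n) (j : Fin k) :
    Uj k n {finProdFinEquiv (j₀, i₀)} j = if j = j₀ then {i₀} else ∅ := by
  unfold Uj
  ext i
  simp only [Finset.mem_filter, Finset.mem_univ, true_and, Finset.mem_singleton,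
    EmbeddingLike.apply_eq_iff_eq, Prod.mk.injEq]
  split_ifs with hj
  · simp [hj]
  · simp [hj]

lemma TU_singleton (k n : ℕ) (j₀ : Fin k) (i₀ : Fin n) :
    TU k n {finProdFinEquiv (j₀, i₀)} = {j₀} := by
  unfold TU
  ext j
  simp only [Finset.mem_filter, Finset.mem_univ, true_and, Finset.mem_singleton, Uj_singleton]
  split_ifs with hj
  · simp [hj]
  · simp [hj]

lemma sum_fourier_comp (k n : ℕ) (h : (Fin k → Bool) → ℝ) (g : (Fin n → Bool) → ℝ)
    (hg : ∀ x, g x = 1 ∨ g x = -1) (hbal : fourier g ∅ = 0) :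
    ∑ u, fourier (comp k n h g) {u} = (∑ j, fourier h {j}) * ∑ i, fourier g {i} := by
  rw [← Equiv.sum_comp finProdFinEquiv, Fintype.sum_prod_type, Finset.sum_mul_sum]
  apply Finset.sum_congr rfl
  intro j _
  apply Finset.sum_congr rfl
  intro i _
  rw [fourier_comp k n h g hg hbal, TU_singleton, Finset.prod_singleton, Uj_singleton, if_pos rfl]

lemma card_eq_sum_Uj (k n : ℕ) (U : Finset (Fin (k * n))) :
    U.card = ∑ j, (Uj k n U j).card := by
  have h1 : U.card = ∑ u : Fin (k * n), (if u ∈ U then 1 else 0) := by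
    rw [Finset.sum_ite_mem, Finset.univ_inter, Finset.sum_const, smul_eq_mul, mul_one]
  rw [h1, ← Equiv.sum_comp finProdFinEquiv, Fintype.sum_prod_type]
  apply Finset.sum_congr rfl
  intro j _
  unfold Uj
  rw [Finset.card_filter]

lemma fourier_comp_deg (k n a b : ℕ) (h : (Fin k → Bool) → ℝ) (g : (Fin n → Bool) → ℝ)
    (hg : ∀ x, g x = 1 ∨ g x = -1) (hbal : fourier g ∅ = 0)
    (hha : ∀ S : Finset (Fin k), a < S.card → fourier h S = 0)
    (hgb : ∀ S : Finset (Fin n), b < S.card → fourier g S = 0)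
    (U : Finset (Fin (k * n))) (hU : a * b < U.card) :
    fourier (comp k n h g) U = 0 := by
  rw [fourier_comp k n h g hg hbal]
  by_cases hT : a < (TU k n U).card
  · rw [hha _ hT, zero_mul]
  · by_cases hex : ∃ j ∈ TU k n U, b < (Uj k n U j).card
    · obtain ⟨j, hj, hjb⟩ := hex
      rw [Finset.prod_eq_zero hj (hgb _ hjb), mul_zero]
    · exfalso
      push Not at hex hT
      have h1 := card_eq_sum_Uj k n U
      have h2 : ∑ j, (Uj k n U j).card = ∑ j ∈ TU k n U, (Uj k n U j).card := by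
        unfold TU
        rw [Finset.sum_filter]
        apply Finset.sum_congr rfl
        intro j _
        split_ifs with hj
        · rfl
        · push Not at hj
          rw [hj, Finset.card_empty]
      have h3 : ∑ j ∈ TU k n U, (Uj k n U j).card ≤ ∑ _j ∈ TU k n U, b :=
        Finset.sum_le_sum hex
      rw [Finset.sum_const, smul_eq_mul] at h3
      have h4 : (TU k n U).card * b ≤ a * b := Nat.mul_le_mul_right b hT
      omega


/-- Iterated composition of a balanced Boolean function with itself. -/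
lemma iterate (n d : ℕ) (g : (Fin n → Bool) → ℝ) (hg : ∀ x, g x = 1 ∨ g x = -1)
    (hbal : fourier g ∅ = 0) (hdeg : ∀ S : Finset (Fin n), d < S.card → fourier g S = 0) :
    ∀ t : ℕ, ∃ (N : ℕ) (G : (Fin N → Bool) → ℝ), (∀ x, G x = 1 ∨ G x = -1) ∧
      (∀ S : Finset (Fin N), d ^ (t + 1) < S.card → fourier G S = 0) ∧
      ∑ i, fourier G {i} = (∑ i, fourier g {i}) ^ (t + 1) := by
  intro t
  induction t with
  | zero => exact ⟨n, g, hg, by simpa using hdeg, by simp⟩
  | succ t ih =>
    obtain ⟨N, G, hG, hGdeg, hGsum⟩ := ih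
    refine ⟨N * n, comp N n G g, comp_boolean N n G g hG, ?_, ?_⟩
    · intro S hS
      exact fourier_comp_deg N n (d ^ (t + 1)) d G g hg hbal hGdeg hdeg S
        (by rwa [pow_succ] at hS)
    · rw [sum_fourier_comp N n G g hg hbal, hGsum, ← pow_succ]

/-- The tensor-power step: a bound `C d^θ` for all Boolean functions gives `d^θ` for balanced ones. -/
lemma balanced_bound (C θ : ℝ)
    (hweak : WeakBound C θ)
    (n d : ℕ) (g : (Fin n → Bool) → ℝ) (hd : 1 ≤ d) (hg : ∀ x, g x = 1 ∨ g x = -1)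
    (hdeg : ∀ S : Finset (Fin n), d < S.card → fourier g S = 0) (hbal : fourier g ∅ = 0) :
    ∑ i, fourier g {i} ≤ (d : ℝ) ^ θ := by
  by_contra hcon
  push Not at hcon
  have hd0 : (0 : ℝ) < (d : ℝ) := by exact_mod_cast hd
  have hD : (0 : ℝ) < (d : ℝ) ^ θ := Real.rpow_pos_of_pos hd0 θ
  set w : ℝ := ∑ i, fourier g {i} with hw
  set D : ℝ := (d : ℝ) ^ θ with hDdef
  have hr : 1 < w / D := by rwa [lt_div_iff₀ hD, one_mul]
  obtain ⟨m, hm⟩ := pow_unbounded_of_one_lt C hr
  obtain ⟨N, G, hG, hGdeg, hGsum⟩ := iterate n d g hg hbal hdeg m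
  have h1 := hweak N (d ^ (m + 1)) G (Nat.one_le_pow _ _ hd) hG hGdeg
  rw [hGsum] at h1
  have h2 : (((d ^ (m + 1) : ℕ) : ℝ)) ^ θ = D ^ (m + 1) := by
    rw [hDdef, Nat.cast_pow, ← Real.rpow_natCast, ← Real.rpow_mul hd0.le, mul_comm,
      Real.rpow_mul hd0.le, Real.rpow_natCast]
  rw [h2] at h1
  have h3 : (w / D) ^ (m + 1) ≤ C := by
    rw [div_pow, div_le_iff₀ (pow_pos hD _)]
    exact h1
  have h4 : (w / D) ^ m ≤ (w / D) ^ (m + 1) := pow_le_pow_right₀ hr.le (Nat.le_succ m)
  linarith


/-- The odd lift `z ↦ z_0 · g (z_1 z_0, ..., z_n z_0)` of `g` to `n + 1` variables. -/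
noncomputable def lift (n : ℕ) (g : (Fin n → Bool) → ℝ) : (Fin (n + 1) → Bool) → ℝ :=
  fun z => sg (z 0) * g (fun i => xor (z i.succ) (z 0))

/-- The part of a set of coordinates of the lifted cube lying over the old coordinates. -/
def tailSet (n : ℕ) (S : Finset (Fin (n + 1))) : Finset (Fin n) :=
  Finset.univ.filter (fun i => i.succ ∈ S)

lemma chi_cons (n : ℕ) (S : Finset (Fin (n + 1))) (y : Bool) (x : Fin n → Bool) :
    chi S (Fin.cons y x : Fin (n + 1) → Bool)
      = (if (0 : Fin (n + 1)) ∈ S then sg y else 1) * chi (tailSet n S) x := by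
  unfold chi
  have h1 : ∏ u ∈ S, sg ((Fin.cons y x : Fin (n + 1) → Bool) u)
      = ∏ u : Fin (n + 1), (if u ∈ S then sg ((Fin.cons y x : Fin (n + 1) → Bool) u) else 1) := by
    rw [Finset.prod_ite_mem, Finset.univ_inter]
  rw [h1, Fin.prod_univ_succ]
  congr 1
  unfold tailSet
  rw [Finset.prod_filter]
  apply Finset.prod_congr rfl
  intro i _
  rw [Fin.cons_succ]

/-- Negation of all coordinates. -/
def negE (n : ℕ) : (Fin n → Bool) ≃ (Fin n → Bool) where
  toFun x := fun i => !x i
  invFun x := fun i => !x i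
  left_inv x := by funext i; simp
  right_inv x := by funext i; simp

lemma chi_neg (n : ℕ) (S : Finset (Fin n)) (x : Fin n → Bool) :
    chi S (fun i => !x i) = (-1) ^ S.card * chi S x := by
  unfold chi
  have h1 : ∀ i ∈ S, sg (!x i) = (-1) * sg (x i) := by
    intro i _
    rw [sg_not]; ring
  rw [Finset.prod_congr rfl h1, Finset.prod_mul_distrib, Finset.prod_const]

theorem fourier_lift (n : ℕ) (g : (Fin n → Bool) → ℝ) (S : Finset (Fin (n + 1))) :
    fourier (lift n g) S = fourier g (tailSet n S)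
      * (1 - (if (0 : Fin (n + 1)) ∈ S then -1 else 1) * (-1) ^ (tailSet n S).card) / 2 := by
  unfold Vale.Agent.Results.P047.LinearCoefficientBound.fourier
  have h1 : ∑ z : Fin (n + 1) → Bool, lift n g z * chi S z
      = ∑ y : Bool, ∑ x : Fin n → Bool,
          lift n g (Fin.cons y x) * chi S (Fin.cons y x : Fin (n + 1) → Bool) := by
    rw [← Equiv.sum_comp (Fin.consEquiv (fun _ => Bool)), Fintype.sum_prod_type]
    rfl
  have hA : ∑ x : Fin n → Bool, g (fun i => !x i) * chi (tailSet n S) x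
      = (-1) ^ (tailSet n S).card * ∑ x : Fin n → Bool, g x * chi (tailSet n S) x := by
    rw [← Equiv.sum_comp (negE n), Finset.mul_sum]
    apply Finset.sum_congr rfl
    intro x _
    have h2 : (negE n) x = fun i => !x i := rfl
    rw [h2, chi_neg]
    have h3 : (fun i => !(fun i => !x i) i) = x := by funext i; simp
    rw [h3]
    ring
  rw [h1, Fintype.sum_bool]
  have hT : ∑ x : Fin n → Bool, lift n g (Fin.cons true x)
        * chi S (Fin.cons true x : Fin (n + 1) → Bool)
      = -(if (0 : Fin (n + 1)) ∈ S then -1 else 1)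
        * ∑ x : Fin n → Bool, g (fun i => !x i) * chi (tailSet n S) x := by
    rw [Finset.mul_sum]
    apply Finset.sum_congr rfl
    intro x _
    rw [chi_cons]
    unfold lift
    have hsg : sg true = -1 := by simp [sg]
    simp only [Fin.cons_zero, Fin.cons_succ, Bool.xor_true, hsg]
    split_ifs <;> ring
  have hF : ∑ x : Fin n → Bool, lift n g (Fin.cons false x)
        * chi S (Fin.cons false x : Fin (n + 1) → Bool)
      = ∑ x : Fin n → Bool, g x * chi (tailSet n S) x := by
    apply Finset.sum_congr rfl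
    intro x _
    rw [chi_cons]
    unfold lift
    have hsg : sg false = 1 := by simp [sg]
    simp only [Fin.cons_zero, Fin.cons_succ, Bool.xor_false, hsg]
    simp
  rw [hT, hF, hA, pow_succ]
  ring


lemma lift_boolean (n : ℕ) (g : (Fin n → Bool) → ℝ) (hg : ∀ x, g x = 1 ∨ g x = -1) :
    ∀ z, lift n g z = 1 ∨ lift n g z = -1 := by
  intro z
  unfold lift
  rcases hg (fun i => xor (z i.succ) (z 0)) with h | h <;> rw [h] <;> cases z 0 <;> simp [sg]

lemma tailSet_empty (n : ℕ) : tailSet n ∅ = ∅ := by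
  simp [tailSet]

lemma tailSet_zero (n : ℕ) : tailSet n {0} = ∅ := by
  unfold tailSet
  ext i
  simp [Fin.succ_ne_zero]

lemma tailSet_succ (n : ℕ) (i : Fin n) : tailSet n {i.succ} = {i} := by
  unfold tailSet
  ext j
  simp [Fin.succ_inj]

lemma card_le_tailSet (n : ℕ) (S : Finset (Fin (n + 1))) : S.card ≤ (tailSet n S).card + 1 := by
  have hsub : S ⊆ insert 0 ((tailSet n S).image Fin.succ) := by
    intro u hu
    rcases Fin.eq_zero_or_eq_succ u with h | ⟨i, h⟩
    · rw [h]; exact Finset.mem_insert_self _ _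
    · apply Finset.mem_insert_of_mem
      rw [Finset.mem_image]
      refine ⟨i, ?_, h.symm⟩
      unfold tailSet
      rw [Finset.mem_filter]
      exact ⟨Finset.mem_univ _, h ▸ hu⟩
  calc S.card ≤ (insert 0 ((tailSet n S).image Fin.succ)).card := Finset.card_le_card hsub
    _ ≤ ((tailSet n S).image Fin.succ).card + 1 := Finset.card_insert_le _ _
    _ ≤ (tailSet n S).card + 1 := Nat.add_le_add_right Finset.card_image_le 1

lemma fourier_lift_empty (n : ℕ) (g : (Fin n → Bool) → ℝ) : fourier (lift n g) ∅ = 0 := by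
  rw [fourier_lift, tailSet_empty]
  simp

lemma fourier_lift_zero (n : ℕ) (g : (Fin n → Bool) → ℝ) :
    fourier (lift n g) {0} = fourier g ∅ := by
  rw [fourier_lift, tailSet_zero]
  simp
  ring

lemma fourier_lift_succ (n : ℕ) (g : (Fin n → Bool) → ℝ) (i : Fin n) :
    fourier (lift n g) {i.succ} = fourier g {i} := by
  rw [fourier_lift, tailSet_succ]
  have h0 : (0 : Fin (n + 1)) ∉ ({i.succ} : Finset (Fin (n + 1))) := by
    rw [Finset.mem_singleton]
    exact (Fin.succ_ne_zero i).symm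
  rw [if_neg h0]
  simp
  ring

lemma fourier_lift_deg (n d : ℕ) (g : (Fin n → Bool) → ℝ)
    (hdeg : ∀ S : Finset (Fin n), d < S.card → fourier g S = 0)
    (S : Finset (Fin (n + 1))) (hS : d + 1 < S.card) : fourier (lift n g) S = 0 := by
  rw [fourier_lift, hdeg (tailSet n S) (by have := card_le_tailSet n S; omega)]
  simp

lemma sum_fourier_lift (n : ℕ) (g : (Fin n → Bool) → ℝ) :
    ∑ u, fourier (lift n g) {u} = fourier g ∅ + ∑ i, fourier g {i} := by
  rw [Fin.sum_univ_succ, fourier_lift_zero]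
  congr 1
  apply Finset.sum_congr rfl
  intro i _
  exact fourier_lift_succ n g i

lemma card_le_tailSet_of_notMem (n : ℕ) (S : Finset (Fin (n + 1)))
    (h0 : (0 : Fin (n + 1)) ∉ S) : S.card ≤ (tailSet n S).card := by
  have hsub : S ⊆ (tailSet n S).image Fin.succ := by
    intro u hu
    rcases Fin.eq_zero_or_eq_succ u with h | ⟨i, h⟩
    · exact absurd (h ▸ hu) h0
    · rw [Finset.mem_image]
      refine ⟨i, ?_, h.symm⟩
      unfold tailSet
      rw [Finset.mem_filter]
      exact ⟨Finset.mem_univ _, h ▸ hu⟩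
  exact (Finset.card_le_card hsub).trans Finset.card_image_le

/-- For odd `d` the odd lift of a function of degree at most `d` still has degree at most `d`. -/
lemma fourier_lift_deg_odd (n d : ℕ) (hodd : Odd d) (g : (Fin n → Bool) → ℝ)
    (hdeg : ∀ S : Finset (Fin n), d < S.card → fourier g S = 0)
    (S : Finset (Fin (n + 1))) (hS : d < S.card) : fourier (lift n g) S = 0 := by
  rw [fourier_lift]
  by_cases ht : d < (tailSet n S).card
  · rw [hdeg _ ht]; simp
  · push Not at ht
    have h1 := card_le_tailSet n S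
    have h0 : (0 : Fin (n + 1)) ∈ S := by
      by_contra h0
      have := card_le_tailSet_of_notMem n S h0
      omega
    have hcard : (tailSet n S).card = d := by omega
    rw [if_pos h0, hcard, Odd.neg_one_pow hodd]
    norm_num

/-- The two lifts (the odd lift and the odd lift with its first coordinate negated) give the
bound with `|E g|`, for any degree bound `D` that the lift satisfies. -/
lemma lift_bound (C θ : ℝ) (hweak : WeakBound C θ) (n D : ℕ) (g : (Fin n → Bool) → ℝ)
    (hD : 1 ≤ D) (hg : ∀ x, g x = 1 ∨ g x = -1)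
    (hdegL : ∀ S : Finset (Fin (n + 1)), D < S.card → fourier (lift n g) S = 0) :
    ∑ i, fourier g {i} + |fourier g ∅| ≤ (D : ℝ) ^ θ := by
  have h1 := balanced_bound C θ hweak (n + 1) D (lift n g) hD
    (lift_boolean n g hg) hdegL (fourier_lift_empty n g)
  rw [sum_fourier_lift] at h1
  have hb2 : ∀ z, (fun z => lift n g (flip 0 z)) z = 1 ∨ (fun z => lift n g (flip 0 z)) z = -1 :=
    fun z => lift_boolean n g hg (flip 0 z)
  have hdeg2 : ∀ S : Finset (Fin (n + 1)), D < S.card →
      fourier (fun z => lift n g (flip 0 z)) S = 0 := by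
    intro S hS
    rw [fourier_comp_flip, hdegL S hS]
    simp
  have hbal2 : fourier (fun z => lift n g (flip 0 z)) ∅ = 0 := by
    rw [fourier_comp_flip, fourier_lift_empty]
    simp
  have h2 := balanced_bound C θ hweak (n + 1) D (fun z => lift n g (flip 0 z)) hD
    hb2 hdeg2 hbal2
  have hsum2 : ∑ u, fourier (fun z => lift n g (flip 0 z)) {u}
      = - fourier g ∅ + ∑ i, fourier g {i} := by
    rw [Fin.sum_univ_succ, fourier_comp_flip, if_pos (Finset.mem_singleton_self _),
      fourier_lift_zero]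
    congr 1
    apply Finset.sum_congr rfl
    intro i _
    have h0 : (0 : Fin (n + 1)) ∉ ({i.succ} : Finset (Fin (n + 1))) := by
      rw [Finset.mem_singleton]
      exact (Fin.succ_ne_zero i).symm
    rw [fourier_comp_flip, if_neg h0, fourier_lift_succ]
  rw [hsum2] at h2
  rcases abs_cases (fourier g ∅) with ⟨h, _⟩ | ⟨h, _⟩ <;> rw [h] <;> linarith

/-- **The weak form self-improves.** Suppose that for some constants `C` and `θ` every Boolean
function `f` of degree at most `d ≥ 1` satisfies `∑ i, fourier f {i} ≤ C d^θ`.  Then every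
Boolean function `g` of degree at most `d ≥ 1` satisfies `∑ i, fourier g {i} ≤ d^θ` if it is
balanced, `∑ i, fourier g {i} + |E g| ≤ d^θ` if `d` is odd, and
`∑ i, fourier g {i} + |E g| ≤ (d + 1)^θ` in general. -/
theorem self_improve (C θ : ℝ)
    (hweak : WeakBound C θ) :
    ∀ (n d : ℕ) (g : (Fin n → Bool) → ℝ), 1 ≤ d → (∀ x, g x = 1 ∨ g x = -1) →
      (∀ S : Finset (Fin n), d < S.card → fourier g S = 0) →
      (fourier g ∅ = 0 → ∑ i, fourier g {i} ≤ (d : ℝ) ^ θ) ∧
      (Odd d → ∑ i, fourier g {i} + |fourier g ∅| ≤ (d : ℝ) ^ θ) ∧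
      ∑ i, fourier g {i} + |fourier g ∅| ≤ ((d : ℝ) + 1) ^ θ := by
  intro n d g hd hg hdeg
  refine ⟨fun hbal => balanced_bound C θ hweak n d g hd hg hdeg hbal, ?_, ?_⟩
  · intro hodd
    exact lift_bound C θ hweak n d g hd hg (fourier_lift_deg_odd n d hodd g hdeg)
  · have hcast : (((d + 1 : ℕ) : ℝ)) = (d : ℝ) + 1 := by push_cast; ring
    have h := lift_bound C θ hweak n (d + 1) g (by omega) hg (fourier_lift_deg n d g hdeg)
    rwa [hcast] at h

/-- An exponent above `1/2` separating `a^θ` from a number above `√a`. -/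
lemma exists_theta (a X : ℝ) (ha : 1 ≤ a) (hX : Real.sqrt a < X) :
    ∃ θ : ℝ, 1 / 2 < θ ∧ a ^ θ < X := by
  rcases eq_or_lt_of_le ha with h1 | h1
  · refine ⟨1, by norm_num, ?_⟩
    rw [← h1] at hX ⊢
    simpa using hX
  · have ha0 : (0 : ℝ) < a := by linarith
    have hX0 : 0 < X := lt_of_le_of_lt (Real.sqrt_nonneg _) hX
    have hLw : a ^ Real.logb a X = X := Real.rpow_logb ha0 (ne_of_gt h1) hX0
    have hL : 1 / 2 < Real.logb a X := by
      rw [← Real.rpow_lt_rpow_left_iff h1, hLw, ← Real.sqrt_eq_rpow]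
      exact hX
    refine ⟨(1 / 2 + Real.logb a X) / 2, by linarith, ?_⟩
    have h2 : a ^ ((1 / 2 + Real.logb a X) / 2) < a ^ Real.logb a X := by
      rw [Real.rpow_lt_rpow_left_iff h1]
      linarith
    rwa [hLw] at h2

/-- **Self-improvement of the weak form, equivalence with the sharp form in odd degrees, and a
dichotomy.**
(1) If `WeakBound C θ` holds for some constants `C`, `θ`, then every Boolean `g` of degree at most
`d ≥ 1` has `∑ i, fourier g {i} ≤ d^θ` when it is balanced, `∑ i, fourier g {i} + |E g| ≤ d^θ`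
when `d` is odd, and `∑ i, fourier g {i} + |E g| ≤ (d + 1)^θ` in general.
(2) The weak form with exponent `1/2` holds for some constant if and only if every Boolean `g`
of degree at most an odd number `d` has `∑ i, fourier g {i} ≤ √d`.
(3) If some Boolean `g` of degree at most `d ≥ 1` violates one of the three bounds of (1) for
`θ = 1/2`, then there is an exponent `θ > 1/2` for which `WeakBound C θ` fails for every `C`. -/
theorem result :
    (∀ C θ : ℝ, WeakBound C θ →
      ∀ (n d : ℕ) (g : (Fin n → Bool) → ℝ), 1 ≤ d → (∀ x, g x = 1 ∨ g x = -1) →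
        (∀ S : Finset (Fin n), d < S.card → fourier g S = 0) →
        (fourier g ∅ = 0 → ∑ i, fourier g {i} ≤ (d : ℝ) ^ θ) ∧
        (Odd d → ∑ i, fourier g {i} + |fourier g ∅| ≤ (d : ℝ) ^ θ) ∧
        ∑ i, fourier g {i} + |fourier g ∅| ≤ ((d : ℝ) + 1) ^ θ) ∧
    ((∃ C : ℝ, WeakBound C (1 / 2)) ↔
      ∀ (n d : ℕ) (g : (Fin n → Bool) → ℝ), Odd d → (∀ x, g x = 1 ∨ g x = -1) →
        (∀ S : Finset (Fin n), d < S.card → fourier g S = 0) →
        ∑ i, fourier g {i} ≤ Real.sqrt (d : ℝ)) ∧
    ((∃ (n d : ℕ) (g : (Fin n → Bool) → ℝ), 1 ≤ d ∧ (∀ x, g x = 1 ∨ g x = -1) ∧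
        (∀ S : Finset (Fin n), d < S.card → fourier g S = 0) ∧
        ((fourier g ∅ = 0 ∧ Real.sqrt (d : ℝ) < ∑ i, fourier g {i}) ∨
         (Odd d ∧ Real.sqrt (d : ℝ) < ∑ i, fourier g {i} + |fourier g ∅|) ∨
         Real.sqrt ((d : ℝ) + 1) < ∑ i, fourier g {i} + |fourier g ∅|)) →
      ∃ θ : ℝ, 1 / 2 < θ ∧ ∀ C : ℝ, ¬ WeakBound C θ) := by
  refine ⟨fun C θ hweak => self_improve C θ hweak, ⟨?_, ?_⟩, ?_⟩
  · -- weak form implies the sharp form in odd degrees
    rintro ⟨C, hweak⟩ n d g hodd hg hdeg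
    have hd : 1 ≤ d := hodd.pos
    have h := (self_improve C (1 / 2) hweak n d g hd hg hdeg).2.1 hodd
    rw [← Real.sqrt_eq_rpow] at h
    have h3 := abs_nonneg (fourier g ∅)
    linarith
  · -- the sharp form in odd degrees implies the weak form with constant √2
    intro hsharp
    refine ⟨Real.sqrt 2, ?_⟩
    intro n d f hd hf hdeg
    have hd1 : (1 : ℝ) ≤ (d : ℝ) := by exact_mod_cast hd
    rw [← Real.sqrt_eq_rpow, ← Real.sqrt_mul (by norm_num : (0 : ℝ) ≤ 2)]
    rcases Nat.even_or_odd d with he | ho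
    · have ho : Odd (d + 1) := he.add_one
      have h := hsharp n (d + 1) f ho hf (fun S hS => hdeg S (by omega))
      refine h.trans (Real.sqrt_le_sqrt ?_)
      push_cast
      linarith
    · have h := hsharp n d f ho hf hdeg
      refine h.trans (Real.sqrt_le_sqrt ?_)
      linarith
  · rintro ⟨n, d, g, hd, hg, hdeg, hcase⟩
    have hd1 : (1 : ℝ) ≤ (d : ℝ) := by exact_mod_cast hd
    rcases hcase with ⟨hbal, hlt⟩ | ⟨hodd, hlt⟩ | hlt
    · obtain ⟨θ, hθ, hlt2⟩ := exists_theta (d : ℝ) _ hd1 hlt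
      refine ⟨θ, hθ, fun C hweak => ?_⟩
      have h1 := (self_improve C θ hweak n d g hd hg hdeg).1 hbal
      linarith
    · obtain ⟨θ, hθ, hlt2⟩ := exists_theta (d : ℝ) _ hd1 hlt
      refine ⟨θ, hθ, fun C hweak => ?_⟩
      have h1 := (self_improve C θ hweak n d g hd hg hdeg).2.1 hodd
      linarith
    · obtain ⟨θ, hθ, hlt2⟩ := exists_theta ((d : ℝ) + 1) _ (by linarith) hlt
      refine ⟨θ, hθ, fun C hweak => ?_⟩
      have h1 := (self_improve C θ hweak n d g hd hg hdeg).2.2
      linarith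

end Vale.Agent.Results.P047.WeakImpliesSharp
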